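import Mathlib

/-!
Distances to random subsets of a finite terminal set `A`: a Bourgain type lemma, robust for
points outside `A`.
-/

open Finset

namespace Vale.Agent.P235

variable {α : Type}

/-- Distance to a finite set, with value `0` for the empty set. -/
noncomputable def setDist (d : α → α → ℝ) (x : α) (S : Finset α) : ℝ :=
  if h : S.Nonempty then S.inf' h (d x) else 0

theorem setDist_le (d : α → α → ℝ) (x : α) {S : Finset α} {a : α} (ha : a ∈ S) :
    setDist d x S ≤ d x a := by
  rw [setDist, dif_pos ⟨a, ha⟩]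
  exact inf'_le _ ha

theorem le_setDist (d : α → α → ℝ) (x : α) {S : Finset α} (hS : S.Nonempty) {r : ℝ}
    (h : ∀ a ∈ S, r ≤ d x a) : r ≤ setDist d x S := by
  rw [setDist, dif_pos hS]
  exact le_inf' _ _ h

theorem exists_mem_setDist (d : α → α → ℝ) (x : α) {S : Finset α} (hS : S.Nonempty) :
    ∃ a ∈ S, setDist d x S = d x a := by
  rw [setDist, dif_pos hS]
  exact exists_mem_eq_inf' _ _

theorem abs_setDist_sub_le {d : α → α → ℝ} (hsymm : ∀ x y, d x y = d y x)
    (htri : ∀ x y z, d x z ≤ d x y + d y z) (hnn : ∀ x y, 0 ≤ d x y) (x y : α) (S : Finset α) :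
    |setDist d x S - setDist d y S| ≤ d x y := by
  rcases S.eq_empty_or_nonempty with rfl | hS
  · simpa [setDist] using hnn x y
  obtain ⟨a, ha, hax⟩ := exists_mem_setDist d x hS
  obtain ⟨b, hb, hby⟩ := exists_mem_setDist d y hS
  rw [abs_le]
  constructor
  · linarith [setDist_le d y ha, htri y x a, hsymm y x]
  · linarith [setDist_le d x hb, htri x y b]

variable [DecidableEq α]

/-- The probability of `S` when each point of `A` is chosen with probability `p`. -/
noncomputable def weight (A : Finset α) (p : ℝ) (S : Finset α) : ℝ :=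
  p ^ S.card * (1 - p) ^ (A \ S).card

theorem weight_nonneg (A S : Finset α) {p : ℝ} (h0 : 0 ≤ p) (h1 : p ≤ 1) : 0 ≤ weight A p S :=
  mul_nonneg (pow_nonneg h0 _) (pow_nonneg (by linarith) _)

theorem weight_sum_disjoint (A U : Finset α) (p : ℝ) (hU : U ⊆ A) :
    ∑ S ∈ A.powerset with Disjoint S U, weight A p S = (1 - p) ^ U.card := by
  have h : ∏ a ∈ A, ((if a ∈ U then 0 else p) + (1 - p)) =
      ∑ S ∈ A.powerset with Disjoint S U, weight A p S := by
    rw [prod_add, sum_filter]
    refine sum_congr rfl fun S _ => ?_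
    split_ifs with hd
    · rw [weight, prod_const, prod_congr rfl (g := fun _ => p)
        (fun a ha => if_neg (disjoint_left.1 hd ha)), prod_const]
    · obtain ⟨a, haS, haU⟩ := not_disjoint_iff.1 hd
      rw [prod_eq_zero (f := fun a => if a ∈ U then (0 : ℝ) else p) haS (if_pos haU), zero_mul]
  rw [← h]
  have h2 : ∀ a ∈ A, ((if a ∈ U then 0 else p) + (1 - p)) = if a ∈ U then 1 - p else 1 := by
    intro a _
    split_ifs <;> ring
  rw [prod_congr rfl h2, prod_ite_mem, inter_eq_right.2 hU, prod_const]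

theorem weight_sum (A : Finset α) (p : ℝ) : ∑ S ∈ A.powerset, weight A p S = 1 := by
  simpa using weight_sum_disjoint A ∅ p (empty_subset A)

theorem pow_level (t : ℕ) :
    (1 / 4 : ℝ) ≤ (1 - (1 / 2) ^ (t + 1)) ^ (2 ^ (t + 1)) := by
  induction t with
  | zero => norm_num
  | succ t ih =>
    refine ih.trans ?_
    rw [show (2 : ℕ) ^ (t + 1 + 1) = 2 * 2 ^ (t + 1) by ring, pow_mul]
    have h1 : (0 : ℝ) ≤ 1 - (1 / 2) ^ (t + 1) := by
      have : ((1 : ℝ) / 2) ^ (t + 1) ≤ 1 := pow_le_one₀ (by norm_num) (by norm_num)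
      linarith
    refine pow_le_pow_left₀ h1 ?_ _
    have h2 : ((1 : ℝ) / 2) ^ (t + 1 + 1) = (1 / 2) ^ (t + 1) / 2 := by ring
    rw [h2]
    nlinarith [sq_nonneg (((1 : ℝ) / 2) ^ (t + 1))]

theorem pow_hit (t : ℕ) : (1 - (1 / 2 : ℝ) ^ (t + 1)) ^ (2 ^ t) ≤ 2 / 3 := by
  set p : ℝ := (1 / 2) ^ (t + 1) with hp
  have hp0 : 0 ≤ p := by positivity
  have hp1 : p ≤ 1 := pow_le_one₀ (by norm_num) (by norm_num)
  have hb := one_add_mul_le_pow (show (-2 : ℝ) ≤ p by linarith) (2 ^ t)
  have hmul : ((2 ^ t : ℕ) : ℝ) * p = 1 / 2 := by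
    rw [hp, pow_succ, ← mul_assoc, Nat.cast_pow, ← mul_pow]
    norm_num
  have hle : (1 - p) ^ (2 ^ t) * (1 + p) ^ (2 ^ t) ≤ 1 := by
    rw [← mul_pow]
    exact pow_le_one₀ (by nlinarith) (by nlinarith)
  have h0 : (0 : ℝ) ≤ (1 - p) ^ (2 ^ t) := pow_nonneg (by linarith) _
  nlinarith

/-- One level. -/
theorem level_lower {d : α → α → ℝ} {A : Finset α} {x y : α} {r r' : ℝ} (t : ℕ) (hrr : r ≤ r')
    (hdisj : ∀ a, d y a ≤ r → r' ≤ d x a) (hy : 2 ^ t ≤ (A.filter fun a => d y a ≤ r).card)
    (hx : (A.filter fun a => d x a < r').card ≤ 2 ^ (t + 1)) :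
    (r' - r) / 12 ≤
      ∑ S ∈ A.powerset,
        weight A ((1 / 2) ^ (t + 1)) S * |setDist d x S - setDist d y S| := by
  set p : ℝ := (1 / 2) ^ (t + 1) with hp
  have hp0 : 0 ≤ p := by positivity
  have hp1 : p ≤ 1 := pow_le_one₀ (by norm_num) (by norm_num)
  have hw : ∀ S, 0 ≤ weight A p S := fun S => weight_nonneg A S hp0 hp1
  set U := A.filter fun a => d x a < r' with hU
  set W := A.filter fun a => d y a ≤ r with hW
  have hUW : Disjoint U W := by
    rw [disjoint_left]
    intro a hau haw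
    simp only [hU, hW, mem_filter] at hau haw
    linarith [hdisj a haw.2]
  set E := (A.powerset.filter fun S => Disjoint S U).filter fun S => ¬ Disjoint S W with hE
  have hdiff : ∀ S ∈ E, r' - r ≤ |setDist d x S - setDist d y S| := by
    intro S hS
    simp only [hE, mem_filter, mem_powerset] at hS
    obtain ⟨a, haS, haW⟩ := not_disjoint_iff.1 hS.2
    have h1 : setDist d y S ≤ r := (setDist_le d y haS).trans (mem_filter.1 haW).2
    have h2 : r' ≤ setDist d x S := le_setDist d x ⟨a, haS⟩ fun b hb => by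
      by_contra hlt
      exact disjoint_left.1 hS.1.2 hb (mem_filter.2 ⟨hS.1.1 hb, not_le.1 hlt⟩)
    linarith [le_abs_self (setDist d x S - setDist d y S)]
  have hmass : ∑ S ∈ E, weight A p S = (1 - p) ^ U.card - (1 - p) ^ (U.card + W.card) := by
    have h1 := sum_filter_add_sum_filter_not (A.powerset.filter fun S => Disjoint S U)
      (fun S => Disjoint S W) (weight A p)
    have h2 : (A.powerset.filter fun S => Disjoint S U).filter (fun S => Disjoint S W) =
        A.powerset.filter fun S => Disjoint S (U ∪ W) := by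
      ext S
      simp [disjoint_union_right, and_assoc]
    rw [h2, weight_sum_disjoint A U p (filter_subset _ _),
      weight_sum_disjoint A (U ∪ W) p (union_subset (filter_subset _ _) (filter_subset _ _)),
      card_union_of_disjoint hUW] at h1
    linarith
  have hq : (1 : ℝ) / 12 ≤ ∑ S ∈ E, weight A p S := by
    rw [hmass, pow_add]
    have h1 : (1 / 4 : ℝ) ≤ (1 - p) ^ U.card :=
      (pow_level t).trans (pow_le_pow_of_le_one (by linarith) (by linarith) hx)
    have h2 : (1 - p) ^ W.card ≤ (2 / 3 : ℝ) :=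
      (pow_le_pow_of_le_one (by linarith) (by linarith) hy).trans (pow_hit t)
    nlinarith
  calc (r' - r) / 12 ≤ (∑ S ∈ E, weight A p S) * (r' - r) := by nlinarith
    _ = ∑ S ∈ E, weight A p S * (r' - r) := sum_mul ..
    _ ≤ ∑ S ∈ E, weight A p S * |setDist d x S - setDist d y S| :=
        sum_le_sum fun S hS => mul_le_mul_of_nonneg_left (hdiff S hS) (hw S)
    _ ≤ _ := sum_le_sum_of_subset_of_nonneg ((filter_subset _ _).trans (filter_subset _ _))
        fun S _ _ => mul_nonneg (hw S) (abs_nonneg _)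

theorem bourgain_lower {d : α → α → ℝ} (hsymm : ∀ x y, d x y = d y x)
    (htri : ∀ x y z, d x z ≤ d x y + d y z) {A : Finset α} {T : ℕ} (hT : A.card < 2 ^ T)
    {x y : α} (hx : ∃ a ∈ A, d x a ≤ d x y / 4) (hy : ∃ a ∈ A, d y a ≤ d x y / 4)
    (hd : 0 ≤ d x y) :
    d x y / 48 ≤ ∑ t ∈ range T, ∑ S ∈ A.powerset,
      weight A ((1 / 2) ^ (t + 1)) S * |setDist d x S - setDist d y S| := by
  set D := d x y with hD
  set lo := D / 4 with hlo
  set hi := D / 2 with hhi
  set cand : Finset ℝ :=
    ((insert lo (insert hi (A.image (d x) ∪ A.image (d y)))).filter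
      fun r => lo ≤ r ∧ r ≤ hi) with hcand
  set good : ℕ → Finset ℝ := fun t => cand.filter fun r => r = hi ∨
    (2 ^ t ≤ (A.filter fun a => d x a ≤ r).card ∧ 2 ^ t ≤ (A.filter fun a => d y a ≤ r).card)
    with hgood
  have hlh : lo ≤ hi := by simp only [hlo, hhi]; linarith
  have hne : ∀ t, (good t).Nonempty := fun t => ⟨hi, by simp [hgood, hcand, hlh]⟩
  set ρ : ℕ → ℝ := fun t => (good t).min' (hne t) with hρ
  have hmem : ∀ t, ρ t ∈ good t := fun t => min'_mem _ _
  have hrange : ∀ t, lo ≤ ρ t ∧ ρ t ≤ hi := fun t => by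
    have := hmem t
    simp only [hgood, hcand, mem_filter] at this
    exact this.1.2
  have hmono : ∀ t, ρ t ≤ ρ (t + 1) := fun t => by
    refine min'_le _ _ ?_
    have h := hmem (t + 1)
    simp only [hgood, mem_filter] at h ⊢
    refine ⟨h.1, h.2.imp id fun h2 => ?_⟩
    have h3 : 2 ^ t ≤ 2 ^ (t + 1) := Nat.pow_le_pow_right (by norm_num) (Nat.le_succ t)
    exact ⟨h3.trans h2.1, h3.trans h2.2⟩
  have h0 : ρ 0 = lo := by
    refine le_antisymm (min'_le _ _ ?_) (hrange 0).1
    simp only [hgood, hcand, mem_filter, mem_insert, pow_zero, Finset.one_le_card]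
    obtain ⟨a, ha, ha'⟩ := hx
    obtain ⟨b, hb, hb'⟩ := hy
    exact ⟨⟨Or.inl trivial, le_refl _, hlh⟩,
      Or.inr ⟨⟨a, by simp [ha, ha']⟩, ⟨b, by simp [hb, hb']⟩⟩⟩
  have hlast : ρ T = hi := by
    have h := hmem T
    simp only [hgood, mem_filter] at h
    rcases h.2 with h2 | h2
    · exact h2
    · exact absurd ((h2.1.trans (card_filter_le _ _)).trans_lt hT) (lt_irrefl _)
  have hstep : ∀ t, (ρ (t + 1) - ρ t) / 12 ≤ ∑ S ∈ A.powerset,
      weight A ((1 / 2) ^ (t + 1)) S * |setDist d x S - setDist d y S| := by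
    intro t
    have hnn : 0 ≤ ∑ S ∈ A.powerset,
        weight A ((1 / 2) ^ (t + 1)) S * |setDist d x S - setDist d y S| :=
      sum_nonneg fun S _ => mul_nonneg
        (weight_nonneg A S (by positivity) (pow_le_one₀ (by norm_num) (by norm_num)))
        (abs_nonneg _)
    rcases (hmono t).eq_or_lt with heq | hlt
    · rw [heq]; simpa using hnn
    have hbig : 2 ^ t ≤ (A.filter fun a => d x a ≤ ρ t).card ∧
        2 ^ t ≤ (A.filter fun a => d y a ≤ ρ t).card := by
      have h := hmem t
      simp only [hgood, mem_filter] at h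
      rcases h.2 with h2 | h2
      · exact absurd hlt (by rw [h2]; exact not_lt.2 (hrange (t + 1)).2)
      · exact h2
    have hsmall : (A.filter fun a => d x a < ρ (t + 1)).card < 2 ^ (t + 1) ∨
        (A.filter fun a => d y a < ρ (t + 1)).card < 2 ^ (t + 1) := by
      by_contra hcon
      push Not at hcon
      set low := cand.filter fun r => r < ρ (t + 1) with hlow
      have hlow_ne : low.Nonempty :=
        ⟨ρ t, mem_filter.2 ⟨(mem_filter.1 (hmem t)).1, hlt⟩⟩
      set r := low.max' hlow_ne with hr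
      have hrlow : r ∈ low := max'_mem _ _
      have hcover : ∀ z : α, (z = x ∨ z = y) → ∀ a ∈ A, d z a < ρ (t + 1) → d z a ≤ r := by
        intro z hz a ha hza
        by_cases h1 : lo ≤ d z a
        · refine le_max' low _ (mem_filter.2 ⟨mem_filter.2 ⟨?_, h1, ?_⟩, hza⟩)
          · rcases hz with rfl | rfl
            · exact mem_insert_of_mem (mem_insert_of_mem (mem_union_left _ (mem_image_of_mem _ ha)))
            · exact mem_insert_of_mem (mem_insert_of_mem (mem_union_right _ (mem_image_of_mem _ ha)))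
          · linarith [(hrange (t + 1)).2]
        · have : lo ∈ low := mem_filter.2 ⟨mem_filter.2 ⟨by simp, le_refl _, hlh⟩,
            by linarith [(hrange t).1]⟩
          linarith [le_max' low _ this]
      have : r ∈ good (t + 1) := by
        refine mem_filter.2 ⟨(mem_filter.1 hrlow).1, Or.inr ⟨?_, ?_⟩⟩
        · refine hcon.1.trans (card_le_card fun a ha => ?_)
          simp only [mem_filter] at ha ⊢
          exact ⟨ha.1, hcover x (Or.inl rfl) a ha.1 ha.2⟩
        · refine hcon.2.trans (card_le_card fun a ha => ?_)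
          simp only [mem_filter] at ha ⊢
          exact ⟨ha.1, hcover y (Or.inr rfl) a ha.1 ha.2⟩
      exact absurd (min'_le _ _ this) (not_le.2 (mem_filter.1 hrlow).2)
    have hsum : ρ t + ρ (t + 1) ≤ D := by linarith [(hrange t).2, (hrange (t + 1)).2]
    rcases hsmall with hs | hs
    · exact level_lower t hlt.le
        (fun a ha => by linarith [htri x a y, hsymm a y]) hbig.2 hs.le
    · refine (level_lower (x := y) (y := x) t hlt.le
        (fun a ha => by linarith [htri x a y, hsymm a y]) hbig.1 hs.le).trans_eq ?_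
      exact sum_congr rfl fun S _ => by rw [abs_sub_comm]
  calc D / 48 = ∑ t ∈ range T, (ρ (t + 1) - ρ t) / 12 := by
        rw [← sum_div, sum_range_sub, h0, hlast]; simp only [hlo, hhi]; ring
    _ ≤ _ := sum_le_sum fun t _ => hstep t

end Vale.Agent.P235
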