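import Mathlib

/-!
Saturation of a cut semimetric: a bounded map to a finite-dimensional `ℓ1` space.
-/

open Finset

namespace Vale.Agent.P235

variable {ι α : Type} [Fintype ι]

/-- The separation indicator of two sides. -/
def sep (p q : Bool) : ℝ := if p = q then 0 else 1

theorem sep_nonneg (p q : Bool) : 0 ≤ sep p q := by
  cases p <;> cases q <;> simp [sep]

theorem exists_saturation (w : ι → ℝ) (b : ι → α → Bool) (hw : ∀ i, 0 ≤ w i) {D : ℝ}
    (hD : 0 < D) :
    ∃ g : α → Finset ι → ℝ, (∀ x, ∑ T, |g x T| ≤ 1) ∧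
      ∀ x y, ∑ T, |g x T - g y T| =
        (1 - Real.exp (-2 * (∑ i, w i * sep (b i x) (b i y)) / D)) / 2 := by
  classical
  set e : ι → ℝ := fun i => Real.exp (-2 * w i / D) with he
  set p : ι → ℝ := fun i => (1 - e i) / 2 with hp
  have he0 : ∀ i, 0 < e i := fun i => Real.exp_pos _
  have he1 : ∀ i, e i ≤ 1 := fun i =>
    Real.exp_le_one_iff.2 (div_nonpos_of_nonpos_of_nonneg (by linarith [hw i]) hD.le)
  set P : Finset ι → ℝ := fun T => (∏ i ∈ T, p i) * ∏ i ∈ univ \ T, (1 - p i) with hP
  have hP0 : ∀ T, 0 ≤ P T := fun T =>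
    mul_nonneg (prod_nonneg fun i _ => by simp only [hp]; linarith [he1 i])
      (prod_nonneg fun i _ => by simp only [hp]; linarith [he0 i])
  have hsum : ∀ s : ι → ℝ, ∑ T, P T * ∏ i ∈ T, s i = ∏ i, (p i * s i + (1 - p i)) := by
    intro s
    rw [prod_add]
    simp only [powerset_univ]
    refine sum_congr rfl fun T _ => ?_
    rw [prod_mul_distrib, hP]
    ring
  have hPsum : ∑ T, P T = 1 := by simpa using hsum fun _ => 1
  set σ : α → ι → ℝ := fun x i => if b i x then -1 else 1 with hσ
  set χ : α → Finset ι → ℝ := fun x T => ∏ i ∈ T, σ x i with hχdef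
  have hχ : ∀ x T, χ x T = 1 ∨ χ x T = -1 := by
    intro x T
    induction T using Finset.induction_on with
    | empty => simp [hχdef]
    | insert i T hi ih =>
      simp only [hχdef] at ih ⊢
      rw [prod_insert hi]
      rcases ih with h | h <;> rw [h] <;> simp only [hσ] <;> split_ifs <;> simp
  refine ⟨fun x T => P T * ((1 - χ x T) / 2), fun x => ?_, fun x y => ?_⟩
  · calc ∑ T, |P T * ((1 - χ x T) / 2)| ≤ ∑ T, P T := by
          refine sum_le_sum fun T _ => ?_
          rcases hχ x T with h | h <;> simp [h, abs_of_nonneg (hP0 T), hP0 T]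
      _ = 1 := hPsum
  · have h1 : ∀ T, |P T * ((1 - χ x T) / 2) - P T * ((1 - χ y T) / 2)| =
        (P T - P T * ∏ i ∈ T, σ x i * σ y i) / 2 := by
      intro T
      rw [prod_mul_distrib]
      change _ = (P T - P T * (χ x T * χ y T)) / 2
      have := abs_of_nonneg (hP0 T)
      rcases hχ x T with h | h <;> rcases hχ y T with h' | h' <;> simp [h, h', this]
    rw [sum_congr rfl fun T _ => h1 T, ← sum_div, sum_sub_distrib, hPsum, hsum]
    congr 2
    rw [mul_sum, sum_div, Real.exp_sum]
    refine prod_congr rfl fun i _ => ?_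
    simp only [hσ, hp, he, sep]
    cases b i x <;> cases b i y <;> simp <;> ring

/-- The saturated distance is comparable to the distance truncated at `D`. -/
theorem saturation_le {δ D : ℝ} (hD : 0 < D) :
    (1 - Real.exp (-2 * δ / D)) / 2 ≤ δ / D := by
  have h := Real.add_one_le_exp (-2 * δ / D)
  have h2 : -2 * δ / D = -(2 * (δ / D)) := by ring
  linarith

theorem saturation_ge {δ D t : ℝ} (hD : 0 < D) (ht : 0 ≤ t) (htD : t ≤ D) (htδ : t ≤ δ) :
    t / D / 3 ≤ (1 - Real.exp (-2 * δ / D)) / 2 := by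
  set u := t / D with hu
  have hu0 : 0 ≤ u := div_nonneg ht hD.le
  have hu1 : u ≤ 1 := (div_le_one hD).2 htD
  have hmono : Real.exp (-2 * δ / D) ≤ Real.exp (-(2 * u)) := by
    apply Real.exp_le_exp.2
    have : u ≤ δ / D := by rw [hu]; gcongr
    have h2 : -2 * δ / D = -(2 * (δ / D)) := by ring
    linarith
  have h3 : Real.exp (-(2 * u)) ≤ 1 / (1 + 2 * u) := by
    rw [Real.exp_neg, one_div]
    exact inv_anti₀ (by linarith) (by linarith [Real.add_one_le_exp (2 * u)])
  have h4 : 1 / (1 + 2 * u) ≤ 1 - 2 * u / 3 := by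
    rw [div_le_iff₀ (by linarith)]
    nlinarith
  linarith

end Vale.Agent.P235
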