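import Vale.Agent.P235.Defs
import Vale.Agent.P235.Saturate

/-!
Finite point sets of L1: cut decompositions, and finite coordinate families as L1 maps.
-/

open MeasureTheory Finset

namespace Vale.Agent.P235

/-- A finite family of coordinates is a map to L1 of the counting measure. -/
theorem embedsL1_of_coords {α ι : Type} [Fintype ι] (d : α → α → ℝ) (C : ℝ) (F : α → ι → ℝ)
    (h1 : ∀ x y, d x y ≤ ∑ i, |F x i - F y i|)
    (h2 : ∀ x y, ∑ i, |F x i - F y i| ≤ C * d x y) : EmbedsL1 d C := by
  letI : MeasurableSpace ι := ⊤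
  refine ⟨ι, inferInstance, Measure.count,
    fun x => (Integrable.of_finite (f := F x)).toL1 (F x), fun x y => ?_⟩
  have hn : ‖(Integrable.of_finite (f := F x) (μ := Measure.count)).toL1 (F x) -
      (Integrable.of_finite (f := F y) (μ := Measure.count)).toL1 (F y)‖ =
      ∑ i, |F x i - F y i| := by
    rw [← Integrable.toL1_sub, L1.norm_of_fun_eq_integral_norm]
    simp [integral_fintype, Measure.real, Real.norm_eq_abs]
  rw [hn]
  exact ⟨h1 x y, h2 x y⟩

section Gap

variable {α : Type} [Fintype α] [DecidableEq α]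

/-- The length of the set of thresholds cutting `h` exactly at `S`. -/
noncomputable def gap (h : α → ℝ) (S : Finset α) : ℝ :=
  if hS : S.Nonempty ∧ Sᶜ.Nonempty then max 0 (S.inf' hS.1 h - Sᶜ.sup' hS.2 h) else 0

theorem gap_nonneg (h : α → ℝ) (S : Finset α) : 0 ≤ gap h S := by
  unfold gap
  split_ifs <;> simp

theorem gap_eq_volume (h : α → ℝ) (S : Finset α) {x y : α} (hx : x ∈ S) (hy : y ∉ S) :
    gap h S = volume.real {t : ℝ | Finset.univ.filter (fun z => t < h z) = S} := by
  have hS : S.Nonempty ∧ Sᶜ.Nonempty := ⟨⟨x, hx⟩, ⟨y, by simp [hy]⟩⟩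
  have hset : {t : ℝ | Finset.univ.filter (fun z => t < h z) = S} =
      Set.Ico (Sᶜ.sup' hS.2 h) (S.inf' hS.1 h) := by
    ext t
    simp only [Set.mem_setOf_eq, Set.mem_Ico, sup'_le_iff, lt_inf'_iff, Finset.ext_iff, mem_filter,
      mem_univ, true_and, mem_compl]
    constructor
    · intro ht
      exact ⟨fun z hz => le_of_not_gt fun hlt => hz ((ht z).1 hlt), fun z hz => (ht z).2 hz⟩
    · rintro ⟨h1, h2⟩ z
      exact ⟨fun hlt => by_contra fun hz => absurd hlt (not_lt.2 (h1 z hz)), h2 z⟩
  rw [hset, Real.volume_real_Ico, gap, dif_pos hS, max_comm]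

theorem gap_sum (h : α → ℝ) (x y : α) :
    ∑ S : Finset α, gap h S * sep (decide (x ∈ S)) (decide (y ∈ S)) = |h x - h y| := by
  have key : ∀ x y : α,
      ∑ S ∈ univ.filter (fun S : Finset α => x ∈ S ∧ y ∉ S), gap h S = max (h x - h y) 0 := by
    intro x y
    set U := univ.filter (fun S : Finset α => x ∈ S ∧ y ∉ S) with hU
    set s : Finset α → Set ℝ := fun S => {t | Finset.univ.filter (fun z => t < h z) = S} with hs
    have hunion : (⋃ S ∈ U, s S) = Set.Ico (h y) (h x) := by
      ext t
      simp [hs, hU, and_comm]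
    rw [sum_congr rfl fun S hS => gap_eq_volume h S (mem_filter.1 hS).2.1 (mem_filter.1 hS).2.2,
      ← measureReal_biUnion_finset (s := U) (f := s) ?_ ?_ ?_, hunion, Real.volume_real_Ico]
    · intro S _ S' _ hne
      exact Set.disjoint_left.2 fun t ht ht' => hne (ht.symm.trans ht')
    · intro S hS
      have hSx := (mem_filter.1 hS).2
      have hset : s S = (⋂ z ∈ S, Set.Iio (h z)) ∩ ⋂ z ∈ Sᶜ, Set.Ici (h z) := by
        ext t
        simp only [hs, Set.mem_setOf_eq, Set.mem_inter_iff, Set.mem_iInter, Set.mem_Iio,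
          Set.mem_Ici, Finset.ext_iff, mem_filter, mem_univ, true_and, mem_compl]
        constructor
        · intro ht
          exact ⟨fun z hz => (ht z).2 hz, fun z hz => le_of_not_gt fun hlt => hz ((ht z).1 hlt)⟩
        · rintro ⟨h1, h2⟩ z
          exact ⟨fun hlt => by_contra fun hz => absurd hlt (not_lt.2 (h2 z hz)), h1 z⟩
      rw [hset]
      exact (Finset.measurableSet_biInter _ fun _ _ => measurableSet_Iio).inter
        (Finset.measurableSet_biInter _ fun _ _ => measurableSet_Ici)
    · intro S hS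
      refine ne_top_of_le_ne_top (b := volume (Set.Ico (h y) (h x))) (by simp) (measure_mono ?_)
      rw [← hunion]
      exact Set.subset_biUnion_of_mem hS
  have habs : ∀ a : ℝ, |a| = max a 0 + max (-a) 0 := by
    intro a
    rcases le_total 0 a with ha | ha
    · simp [ha, abs_of_nonneg ha]
    · simp [ha, abs_of_nonpos ha]
  rw [habs (h x - h y), neg_sub, ← key x y, ← key y x, sum_filter, sum_filter, ← sum_add_distrib]
  refine sum_congr rfl fun S _ => ?_
  by_cases hx : x ∈ S <;> by_cases hy : y ∈ S <;> simp [sep, hx, hy]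

theorem gap_measurable_integrable {Ω : Type} [MeasurableSpace Ω] {μ : Measure Ω}
    (f : α → Ω → ℝ) (hf : ∀ a, Integrable (f a) μ) (S : Finset α) :
    Integrable (fun ω => gap (fun a => f a ω) S) μ := by
  by_cases hS : S.Nonempty ∧ Sᶜ.Nonempty
  · have h1 : Integrable (S.inf' hS.1 f) μ :=
      Finset.inf'_induction hS.1 f (p := fun g => Integrable g μ)
        (fun a ha b hb => ha.inf hb) fun a _ => hf a
    have h2 : Integrable (Sᶜ.sup' hS.2 f) μ :=
      Finset.sup'_induction hS.2 f (p := fun g => Integrable g μ)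
        (fun a ha b hb => ha.sup hb) fun a _ => hf a
    have h3 : Integrable ((0 : Ω → ℝ) ⊔ (S.inf' hS.1 f - Sᶜ.sup' hS.2 f)) μ :=
      (integrable_zero _ _ _).sup (h1.sub h2)
    refine h3.congr (Filter.Eventually.of_forall fun ω => ?_)
    simp [gap, hS, Finset.inf'_apply, Finset.sup'_apply]
  · simp [gap, hS]

/-- A finite subset of L1 is a nonnegative combination of cut semimetrics. -/
theorem cuts_of_embedsL1 {d : α → α → ℝ} {C : ℝ} (h : EmbedsL1 d C) :
    ∃ w : Finset α → ℝ, (∀ S, 0 ≤ w S) ∧ ∀ x y,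
      d x y ≤ ∑ S, w S * sep (decide (x ∈ S)) (decide (y ∈ S)) ∧
      ∑ S, w S * sep (decide (x ∈ S)) (decide (y ∈ S)) ≤ C * d x y := by
  obtain ⟨Ω, _, μ, f, hf⟩ := h
  set g : α → Ω → ℝ := fun a => ⇑(f a) with hg
  have hgi : ∀ a, Integrable (g a) μ := fun a => L1.integrable_coeFn (f a)
  refine ⟨fun S => ∫ ω, gap (fun a => g a ω) S ∂μ,
    fun S => integral_nonneg fun ω => gap_nonneg _ _, fun x y => ?_⟩
  have hsum : ∑ S, (∫ ω, gap (fun a => g a ω) S ∂μ) * sep (decide (x ∈ S)) (decide (y ∈ S)) =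
      ‖f x - f y‖ := by
    rw [L1.norm_eq_integral_norm]
    calc _ = ∫ ω, ∑ S, gap (fun a => g a ω) S * sep (decide (x ∈ S)) (decide (y ∈ S)) ∂μ := by
          rw [integral_finsetSum _ fun S _ => (gap_measurable_integrable g hgi S).mul_const _]
          simp only [integral_mul_const]
      _ = ∫ ω, ‖(f x - f y) ω‖ ∂μ := by
          refine integral_congr_ae ?_
          filter_upwards [Lp.coeFn_sub (f x) (f y)] with ω hω
          rw [hω, gap_sum, Real.norm_eq_abs]
          rfl
  rw [hsum]
  exact hf x y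

end Gap

end Vale.Agent.P235
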