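import Vale.Agent.P235.Graph
import Vale.Agent.P235.Saturate

/-!
A forest metric is a combination of cuts, one for each edge.
-/

open Finset

namespace Vale.Agent.P235

variable {V : Type} {H : SimpleGraph V}

theorem reachable_delete_endpoint {u v : V} {x y : V} (p : H.Walk x y)
    (hy : y = u) :
    (H.deleteEdges {s(u, v)}).Reachable x u ∨ (H.deleteEdges {s(u, v)}).Reachable x v := by
  induction p with
  | nil => exact Or.inl (hy ▸ SimpleGraph.Reachable.refl _)
  | @cons a b c h p ih =>
    by_cases he : s(a, b) = s(u, v)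
    · rcases Sym2.eq_iff.1 he with ⟨rfl, rfl⟩ | ⟨rfl, rfl⟩
      · exact Or.inl (SimpleGraph.Reachable.refl _)
      · exact Or.inr (SimpleGraph.Reachable.refl _)
    · have hadj : (H.deleteEdges {s(u, v)}).Adj a b := by
        simp [SimpleGraph.deleteEdges_adj, h, he]
      exact (ih hy).imp hadj.reachable.trans hadj.reachable.trans

/-- The side of `x` for the cut of the edge `e`. -/
noncomputable def side (H : SimpleGraph V) (e : Sym2 V) (x : V) : Bool := by
  classical exact decide ((H.deleteEdges {e}).Reachable e.out.1 x)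

theorem side_eq_iff (e : Sym2 V) {x y : V} (hxy : H.Reachable x y) :
    side H e x = side H e y ↔ (H.deleteEdges {e}).Reachable x y := by
  classical
  constructor
  · intro h
    by_contra hn
    simp only [side, decide_eq_decide] at h
    have hu : ¬ (H.deleteEdges {e}).Reachable e.out.1 x := fun hx => hn (hx.symm.trans (h.1 hx))
    have hv : ¬ (H.deleteEdges {e}).Reachable e.out.1 y := fun hy => hu (h.2 hy)
    have he : s(e.out.1, e.out.2) = e := e.out_eq
    obtain ⟨p⟩ := hxy
    have hmem : e ∈ p.edges := by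
      by_contra hne
      exact hn ⟨p.toDeleteEdge e hne⟩
    rw [← he] at hmem
    have hru : H.Reachable x e.out.1 :=
      ⟨p.takeUntil _ (p.fst_mem_support_of_mem_edges hmem)⟩
    obtain ⟨q⟩ := hru
    obtain ⟨q'⟩ := (SimpleGraph.Reachable.symm ⟨p⟩).trans ⟨q⟩
    have hx := reachable_delete_endpoint (v := e.out.2) q rfl
    have hy := reachable_delete_endpoint (v := e.out.2) q' rfl
    rw [he] at hx hy
    rcases hx with hx | hx
    · exact hu hx.symm
    rcases hy with hy | hy
    · exact hv hy.symm
    exact hn (hx.trans hy.symm)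
  · intro h
    simp only [side, decide_eq_decide]
    exact ⟨fun hx => hx.trans h, fun hy => hy.trans h.symm⟩

theorem forest_cuts [Fintype V] [DecidableEq V] (hH : H.IsAcyclic) {ℓ : Sym2 V → ℝ}
    (hℓ : ∀ e ∈ H.edgeSet, 0 < ℓ e) :
    ∃ w : Sym2 V → ℝ, (∀ e, 0 ≤ w e) ∧ ∀ x y, H.Reachable x y →
      ∑ e, w e * sep (side H e x) (side H e y) = gdist H ℓ x y := by
  classical
  refine ⟨fun e => if e ∈ H.edgeSet then ℓ e else 0, fun e => ?_, fun x y hxy => ?_⟩
  · dsimp only
    split_ifs with h
    · exact (hℓ e h).le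
    · exact le_rfl
  obtain ⟨P, hP⟩ := hxy.exists_isPath
  have hnd : P.edges.Nodup := hP.isTrail.edges_nodup
  have hiff : ∀ e ∈ H.edgeSet, (side H e x ≠ side H e y ↔ e ∈ P.edges) := by
    intro e _
    rw [Ne, side_eq_iff e hxy]
    constructor
    · intro hn
      by_contra hne
      exact hn ⟨P.toDeleteEdge e hne⟩
    · intro he ⟨q⟩
      have hq : e ∉ (q.mapLe (H.deleteEdges_le {e})).edges := by
        intro hmem
        rw [SimpleGraph.Walk.mapLe, SimpleGraph.Walk.edges_map] at hmem
        simp at hmem
        have := q.edges_subset_edgeSet hmem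
        simp at this
      have hpath := hH.path_unique ⟨P, hP⟩ ((q.mapLe (H.deleteEdges_le {e})).toPath)
      refine hq ((q.mapLe (H.deleteEdges_le {e})).edges_toPath_subset ?_)
      rw [← hpath]
      exact he
  have hle : ∀ p : H.Walk x y, wlen ℓ P ≤ wlen ℓ p := by
    intro p
    have hpath := hH.path_unique ⟨P, hP⟩ p.toPath
    have hsub : P.edges ⊆ p.edges := fun e he => p.edges_toPath_subset (by rw [← hpath]; exact he)
    obtain ⟨l, hl, hsl⟩ := (List.subperm_of_subset hnd hsub)
    unfold wlen
    rw [← (hl.map ℓ).sum_eq]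
    refine List.Sublist.sum_le_sum (hsl.map ℓ) fun a ha => ?_
    obtain ⟨e, he, rfl⟩ := List.mem_map.1 ha
    exact (hℓ e (p.edges_subset_edgeSet he)).le
  have : Nonempty (H.Walk x y) := hxy
  have hd : gdist H ℓ x y = wlen ℓ P := le_antisymm (gdist_le hℓ P) (le_ciInf hle)
  rw [hd, wlen, ← List.sum_toFinset _ hnd]
  rw [← Finset.sum_subset (Finset.subset_univ P.edges.toFinset) (fun e _ he => ?_)]
  · refine Finset.sum_congr rfl fun e he => ?_
    have hmem : e ∈ P.edges := List.mem_toFinset.1 he
    have hedge := P.edges_subset_edgeSet hmem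
    simp [sep, hedge, (hiff e hedge).2 hmem]
  · by_cases hedge : e ∈ H.edgeSet
    · have : side H e x = side H e y := by
        by_contra hne
        exact he (List.mem_toFinset.2 ((hiff e hedge).1 hne))
      simp [sep, this]
    · simp [hedge]

end Vale.Agent.P235
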