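import Vale.Agent.P235.Graph
import Vale.Agent.P235.Bourgain
import Vale.Agent.P235.L1
import Vale.Agent.P235.Tree

/-!
Adding `k` arbitrary vertices costs an additive `log k` in the L1 distortion.
-/

open Finset

namespace Vale.Agent.P235

/-- The tent on the band of scale `D`. -/
noncomputable def tent (D R : ℝ) : ℝ := max 0 (min D (min (R - D / 2) (4 * D - R)))

theorem tent_lipschitz (D R R' : ℝ) : |tent D R - tent D R'| ≤ |R - R'| := by
  have h1 := abs_max_sub_max_le_max 0 (min D (min (R - D / 2) (4 * D - R))) 0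
    (min D (min (R' - D / 2) (4 * D - R')))
  have h2 := abs_min_sub_min_le_max D (min (R - D / 2) (4 * D - R)) D
    (min (R' - D / 2) (4 * D - R'))
  have h3 := abs_min_sub_min_le_max (R - D / 2) (4 * D - R) (R' - D / 2) (4 * D - R')
  have h4 : |(R - D / 2) - (R' - D / 2)| = |R - R'| := by ring_nf
  have h5 : |(4 * D - R) - (4 * D - R')| = |R - R'| := by
    rw [abs_sub_comm R R']; ring_nf
  rw [h4, h5, max_self] at h3
  rw [sub_self, abs_zero] at h1 h2
  unfold tent
  exact h1.trans (max_le (abs_nonneg _) (h2.trans (max_le (abs_nonneg _) h3)))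

theorem tent_nonneg (D R : ℝ) : 0 ≤ tent D R := le_max_left _ _

theorem tent_le {D : ℝ} (hD : 0 ≤ D) (R : ℝ) : tent D R ≤ D :=
  max_le hD (min_le_left _ _)

theorem tent_pos {D R : ℝ} (h : tent D R ≠ 0) : D / 2 < R ∧ R < 4 * D := by
  constructor <;>
  · by_contra hc
    push Not at hc
    refine h (max_eq_left ?_)
    exact (min_le_right _ _).trans (by
      first
      | exact (min_le_left _ _).trans (by linarith)
      | exact (min_le_right _ _).trans (by linarith))

theorem tent_eq {D R : ℝ} (hD : 0 ≤ D) (h1 : 3 / 2 * D ≤ R) (h2 : R ≤ 3 * D) :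
    tent D R = D := by
  unfold tent
  rw [min_eq_left (le_min (by linarith) (by linarith)), max_eq_right hD]

theorem band_sum_le (I : Finset ℤ) (u : ℤ → ℝ) (Rx Ry M : ℝ) (hM : 0 ≤ M)
    (hu : ∀ i ∈ I, u i ≤ M)
    (hz : ∀ i ∈ I, tent ((2 : ℝ) ^ i) Rx = 0 → tent ((2 : ℝ) ^ i) Ry = 0 → u i = 0) :
    ∑ i ∈ I, u i ≤ 6 * M := by
  classical
  set act : ℝ → Finset ℤ := fun R => I.filter fun i => tent ((2 : ℝ) ^ i) R ≠ 0 with hact
  have hcard : ∀ R, (act R).card ≤ 3 := by
    intro R
    refine (card_le_card (t := Finset.Icc (Int.log 2 R - 1) (Int.log 2 R + 1)) fun i hi => ?_).trans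
      (by simp; omega)
    obtain ⟨hlo, hhi⟩ := tent_pos (mem_filter.1 hi).2
    have hi0 : (0 : ℝ) < (2 : ℝ) ^ i := zpow_pos two_pos i
    have hR : 0 < R := by linarith
    have h1 : ((2 : ℕ) : ℝ) ^ Int.log 2 R ≤ R := Int.zpow_log_le_self one_lt_two hR
    have h2 : R < ((2 : ℕ) : ℝ) ^ (Int.log 2 R + 1) := Int.lt_zpow_succ_log_self one_lt_two R
    push_cast at h1 h2
    have h3 : (2 : ℝ) ^ (i - 1) < (2 : ℝ) ^ (Int.log 2 R + 1) := by
      rw [zpow_sub_one₀ two_ne_zero]; linarith
    have h4 : (2 : ℝ) ^ Int.log 2 R < (2 : ℝ) ^ (i + 2) := by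
      rw [zpow_add₀ two_ne_zero]; norm_num; linarith
    rw [zpow_lt_zpow_iff_right₀ one_lt_two] at h3 h4
    rw [Finset.mem_Icc]
    omega
  calc ∑ i ∈ I, u i = ∑ i ∈ act Rx ∪ act Ry, u i := by
        symm
        refine sum_subset (union_subset (filter_subset _ _) (filter_subset _ _)) fun i hi hni => ?_
        simp only [hact, mem_union, mem_filter, not_or, not_and, not_not] at hni
        exact hz i hi (hni.1 hi) (hni.2 hi)
    _ ≤ (act Rx ∪ act Ry).card • M := sum_le_card_nsmul _ _ _ fun i hi => by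
        simp only [hact, mem_union, mem_filter] at hi
        exact hu i (hi.elim And.left And.left)
    _ ≤ 6 * M := by
        rw [nsmul_eq_mul]
        refine mul_le_mul_of_nonneg_right ?_ hM
        have := (card_union_le (act Rx) (act Ry)).trans (Nat.add_le_add (hcard Rx) (hcard Ry))
        exact_mod_cast this

variable {V : Type} [Fintype V]

/-- The core: a cut family for the components of `G - A` gives an embedding of `G`. -/
theorem apex_core [DecidableEq V] {ι : Type} [Fintype ι] {G : SimpleGraph V} {ℓ : Sym2 V → ℝ}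
    (hℓ : ∀ e ∈ G.edgeSet, 0 < ℓ e) (hG : G.Connected) (A : Finset V) (hA : A.Nonempty)
    (w : ι → ℝ) (hw : ∀ i, 0 ≤ w i) (b : ι → ((↑A : Set V)ᶜ : Set V) → Bool) {K : ℝ} (hK : 1 ≤ K)
    (hb : ∀ x y, (G.induce (↑A : Set V)ᶜ).Reachable x y →
      gdist (G.induce (↑A : Set V)ᶜ) (fun e => ℓ (e.map Subtype.val)) x y ≤
          ∑ i, w i * sep (b i x) (b i y) ∧
        ∑ i, w i * sep (b i x) (b i y) ≤
          K * gdist (G.induce (↑A : Set V)ᶜ) (fun e => ℓ (e.map Subtype.val)) x y) :
    EmbedsL1 (gdist G ℓ) (3000 * (K + Nat.log 2 A.card)) := by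
  classical
  set H := G.induce ((↑A : Set V)ᶜ : Set V)
  set d := gdist G ℓ with hd
  set dH := gdist H (fun e => ℓ (e.map Subtype.val))
  have hsymm : ∀ x y, d x y = d y x := gdist_symm hℓ hG
  have htri : ∀ x y z, d x z ≤ d x y + d y z := gdist_triangle hℓ hG
  have hnn : ∀ x y, 0 ≤ d x y := gdist_nonneg hℓ
  set R : V → ℝ := fun x => setDist d x A with hR
  have hRle : ∀ x, ∀ a ∈ A, R x ≤ d x a := fun x a ha => setDist_le d x ha
  have hRlip : ∀ x y, |R x - R y| ≤ d x y := fun x y => abs_setDist_sub_le hsymm htri hnn x y A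
  have hRnn : ∀ x, 0 ≤ R x := fun x => le_setDist d x hA fun a _ => hnn x a
  have hRA : ∀ x, x ∈ A → R x = 0 := fun x hx =>
    le_antisymm ((hRle x x hx).trans_eq (gdist_self hℓ x)) (hRnn x)
  -- the cuts, with one more for each component
  set b' : ι ⊕ H.ConnectedComponent → ((↑A : Set V)ᶜ : Set V) → Bool := fun j x =>
    Sum.elim (fun i => b i x) (fun c => decide (H.connectedComponentMk x = c)) j with hb'
  set δ : ℝ → ((↑A : Set V)ᶜ : Set V) → ((↑A : Set V)ᶜ : Set V) → ℝ := fun D x y =>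
    ∑ j, (Sum.elim w (fun _ => D) j) * sep (b' j x) (b' j y) with hδ
  have hδ_reach : ∀ D x y, H.Reachable x y →
      δ D x y = ∑ i, w i * sep (b i x) (b i y) := by
    intro D x y h
    simp only [hδ, hb', Fintype.sum_sum_type, Sum.elim_inl, Sum.elim_inr]
    rw [add_eq_left]
    refine sum_eq_zero fun c _ => ?_
    rw [SimpleGraph.ConnectedComponent.sound h]
    simp [sep]
  have hδ_far : ∀ D, 0 ≤ D → ∀ x y, ¬ H.Reachable x y → D ≤ δ D x y := by
    intro D hD x y h
    refine le_trans ?_ (single_le_sum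
      (fun j _ => mul_nonneg (by cases j <;> simp [hw, hD]) (sep_nonneg _ _))
      (mem_univ (Sum.inr (H.connectedComponentMk x))))
    have : ¬ H.connectedComponentMk y = H.connectedComponentMk x := fun he =>
      h (SimpleGraph.ConnectedComponent.exact he).symm
    simp [hb', sep, this]
  have hsat : ∀ i : ℤ, ∃ g : ((↑A : Set V)ᶜ : Set V) → Finset (ι ⊕ H.ConnectedComponent) → ℝ,
      (∀ x, ∑ T, |g x T| ≤ 1) ∧ ∀ x y, ∑ T, |g x T - g y T| =
        (1 - Real.exp (-2 * δ ((2 : ℝ) ^ i) x y / (2 : ℝ) ^ i)) / 2 := fun i => by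
    obtain ⟨g, hg1, hg2⟩ := exists_saturation (Sum.elim w fun _ => (2 : ℝ) ^ i) b'
      (fun j => by cases j <;> simp [hw, (zpow_pos (two_pos (α := ℝ)) i).le])
      (zpow_pos (two_pos (α := ℝ)) i)
    exact ⟨g, hg1, hg2⟩
  choose g hg1 hg2 using hsat
  set gg : ℤ → V → Finset (ι ⊕ H.ConnectedComponent) → ℝ := fun i x T =>
    if hx : x ∈ ((↑A : Set V)ᶜ : Set V) then g i ⟨x, hx⟩ T else 0 with hgg
  have hgg1 : ∀ i x, ∑ T, |gg i x T| ≤ 1 := by
    intro i x
    by_cases hx : x ∈ ((↑A : Set V)ᶜ : Set V)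
    · simp only [hgg, dif_pos hx]; exact hg1 i ⟨x, hx⟩
    · simp only [hgg, dif_neg hx]; simp
  set scale : V → ℤ := fun x => Int.log 2 (2 * R x / 3) with hscale
  set I : Finset ℤ := univ.image scale with hI
  set T := Nat.log 2 A.card + 1 with hT
  have hAT : A.card < 2 ^ T := Nat.lt_pow_succ_log_self one_lt_two _
  -- the coordinates
  set F : V → Unit ⊕ (Fin T × A.powerset) ⊕ (I × Finset (ι ⊕ H.ConnectedComponent)) → ℝ :=
    fun x => Sum.elim (fun _ => R x) (Sum.elim
      (fun q => weight A ((1 / 2) ^ ((q.1 : ℕ) + 1)) q.2.1 * setDist d x q.2.1)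
      (fun q => tent ((2 : ℝ) ^ (q.1 : ℤ)) (R x) * gg q.1 x q.2)) with hF
  set U1 : V → V → ℝ := fun x y => ∑ t ∈ range T, ∑ S ∈ A.powerset,
    weight A ((1 / 2) ^ (t + 1)) S * |setDist d x S - setDist d y S| with hU1
  set u : ℤ → V → V → ℝ := fun i x y => ∑ T, |tent ((2 : ℝ) ^ i) (R x) * gg i x T -
    tent ((2 : ℝ) ^ i) (R y) * gg i y T| with hu
  have hw1 : ∀ (t : ℕ) (S : Finset V), 0 ≤ weight A ((1 / 2) ^ (t + 1)) S := fun t S =>
    weight_nonneg A S (by positivity) (pow_le_one₀ (by norm_num) (by norm_num))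
  have hsum : ∀ x y, ∑ j, |F x j - F y j| = |R x - R y| + (U1 x y + ∑ i ∈ I, u i x y) := by
    intro x y
    simp only [hF, hU1, hu, Fintype.sum_sum_type, Sum.elim_inl, Sum.elim_inr,
      Fintype.sum_prod_type, univ_unique, sum_singleton]
    congr 2
    · rw [← Fin.sum_univ_eq_sum_range (fun t => ∑ S ∈ A.powerset,
        weight A ((1 / 2) ^ (t + 1)) S * |setDist d x S - setDist d y S|) T]
      refine sum_congr rfl fun t _ => ?_
      rw [← sum_coe_sort A.powerset]
      refine sum_congr rfl fun S _ => ?_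
      rw [← mul_sub, abs_mul, abs_of_nonneg (hw1 _ _)]
    · exact (sum_coe_sort I fun i => ∑ T, |tent ((2 : ℝ) ^ i) (R x) * gg i x T -
        tent ((2 : ℝ) ^ i) (R y) * gg i y T|)
  have hU1le : ∀ x y, U1 x y ≤ T * d x y := by
    intro x y
    refine (sum_le_sum (g := fun _ => d x y) fun t _ => ?_).trans (by simp)
    calc _ ≤ ∑ S ∈ A.powerset, weight A ((1 / 2) ^ (t + 1)) S * d x y :=
          sum_le_sum fun S _ => mul_le_mul_of_nonneg_left
            (abs_setDist_sub_le hsymm htri hnn x y S) (hw1 t S)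
      _ = d x y := by rw [← sum_mul, weight_sum, one_mul]
  -- pairs inside a component at distance below `R`
  have hlocal : ∀ (x y : ((↑A : Set V)ᶜ : Set V)), d x.1 y.1 < R x.1 →
      H.Reachable x y ∧ dH x y = d x.1 y.1 := fun x y h =>
    local_agree hℓ hG h fun a ha => hRle x.1 a ha
  have hule : ∀ x y i, u i x y ≤ (K + 3) * d x y := by
    intro x y i
    set D := (2 : ℝ) ^ i with hD
    have hD0 : 0 < D := zpow_pos two_pos i
    have hsplit : ∀ x y, u i x y ≤ |tent D (R x) - tent D (R y)| +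
        tent D (R y) * ∑ T, |gg i x T - gg i y T| := by
      intro x y
      calc u i x y ≤ ∑ T, (|tent D (R x) - tent D (R y)| * |gg i x T| +
              tent D (R y) * |gg i x T - gg i y T|) := by
            refine sum_le_sum fun T _ => ?_
            rw [← abs_mul, ← abs_of_nonneg (tent_nonneg D (R y)), ← abs_mul,
              abs_of_nonneg (tent_nonneg D (R y))]
            refine le_trans (le_of_eq ?_) (abs_add_le _ _)
            congr 1
            ring
        _ ≤ _ := by
            rw [sum_add_distrib, ← mul_sum, ← mul_sum]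
            gcongr
            exact mul_le_of_le_one_right (abs_nonneg _) (hgg1 i x)
    have htd : |tent D (R x) - tent D (R y)| ≤ d x y :=
      (tent_lipschitz D _ _).trans (hRlip x y)
    have hd0 := hnn x y
    by_cases hy : tent D (R y) = 0
    · calc u i x y ≤ _ := hsplit x y
        _ ≤ (K + 3) * d x y := by rw [hy] at htd ⊢; rw [zero_mul, add_zero]; exact htd.trans (le_mul_of_one_le_left hd0 (show (1 : ℝ) ≤ K + 3 by linarith))
    by_cases hx : tent D (R x) = 0
    · have : u i x y = u i y x := sum_congr rfl fun T _ => abs_sub_comm _ _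
      rw [this, hsymm x y]
      calc u i y x ≤ _ := hsplit y x
        _ ≤ (K + 3) * d y x := by
            rw [hx] at htd ⊢
            rw [zero_sub, abs_neg] at htd
            rw [hsymm y x, zero_mul, add_zero, sub_zero]
            exact htd.trans (le_mul_of_one_le_left (hnn x y) (show (1 : ℝ) ≤ K + 3 by linarith))
    have hxW : x ∈ ((↑A : Set V)ᶜ : Set V) := fun h => by linarith [hRA x h, (tent_pos hx).1]
    have hyW : y ∈ ((↑A : Set V)ᶜ : Set V) := fun h => by linarith [hRA y h, (tent_pos hy).1]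
    have hnorm : tent D (R y) * ∑ T, |gg i x T - gg i y T| ≤ (K + 2) * d x y := by
      have hgeq : ∑ T, |gg i x T - gg i y T| =
          (1 - Real.exp (-2 * δ D ⟨x, hxW⟩ ⟨y, hyW⟩ / D)) / 2 := by
        rw [← hg2 i]; simp only [hgg, dif_pos hxW, dif_pos hyW]
      have ht1 := tent_le hD0.le (R y)
      have ht0 := tent_nonneg D (R y)
      by_cases hclose : d x y < R x
      · obtain ⟨hr, he⟩ := hlocal ⟨x, hxW⟩ ⟨y, hyW⟩ hclose
        have hle := (hb _ _ hr).2
        rw [← hδ_reach D _ _ hr] at hle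
        have hs := saturation_le (δ := δ D ⟨x, hxW⟩ ⟨y, hyW⟩) hD0
        rw [hgeq]
        have hδ0 : 0 ≤ δ D ⟨x, hxW⟩ ⟨y, hyW⟩ := by
          rw [hδ_reach D _ _ hr]
          exact sum_nonneg fun j _ => mul_nonneg (hw j) (sep_nonneg _ _)
        calc _ ≤ tent D (R y) * (δ D ⟨x, hxW⟩ ⟨y, hyW⟩ / D) := mul_le_mul_of_nonneg_left hs ht0
          _ ≤ D * (δ D ⟨x, hxW⟩ ⟨y, hyW⟩ / D) :=
              mul_le_mul_of_nonneg_right ht1 (div_nonneg hδ0 hD0.le)
          _ = δ D ⟨x, hxW⟩ ⟨y, hyW⟩ := by field_simp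
          _ ≤ K * d x y := hle.trans_eq (by rw [← he])
          _ ≤ (K + 2) * d x y := by nlinarith
      · have h1 : ∑ T, |gg i x T - gg i y T| ≤ 1 := by
          rw [hgeq]
          linarith [Real.exp_pos (-2 * δ D ⟨x, hxW⟩ ⟨y, hyW⟩ / D)]
        have := (tent_pos hx).1
        calc _ ≤ tent D (R y) := mul_le_of_le_one_right ht0 h1
          _ ≤ (K + 2) * d x y := by nlinarith
    linarith [hsplit x y]
  have hbands : ∀ x y, ∑ i ∈ I, u i x y ≤ 6 * ((K + 3) * d x y) := by
    intro x y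
    refine band_sum_le I _ (R x) (R y) _ (mul_nonneg (by linarith) (hnn x y))
      (fun i _ => hule x y i) fun i _ h1 h2 => ?_
    simp [hu, h1, h2]
  have hlower : ∀ x y, R y ≤ R x → d x y ≤ 96 * ∑ j, |F x j - F y j| := by
    intro x y hxy
    rw [hsum]
    have h0 : 0 ≤ U1 x y := sum_nonneg fun t _ => sum_nonneg fun S _ =>
      mul_nonneg (hw1 t S) (abs_nonneg _)
    have hu0 : ∀ i, 0 ≤ u i x y := fun i => sum_nonneg fun T _ => abs_nonneg _
    have hI0 : 0 ≤ ∑ i ∈ I, u i x y := sum_nonneg fun i _ => hu0 i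
    have habs : R x - R y ≤ |R x - R y| := le_abs_self _
    by_cases hfar : 4 * R x ≤ d x y
    · obtain ⟨a, ha, hax⟩ := exists_mem_setDist d x hA
      obtain ⟨c, hc, hcy⟩ := exists_mem_setDist d y hA
      have hax' : R x = d x a := hax
      have hcy' : R y = d y c := hcy
      have := bourgain_lower hsymm htri hAT (x := x) (y := y) ⟨a, ha, by linarith⟩
        ⟨c, hc, by linarith⟩ (hnn x y)
      have h2 : d x y / 48 ≤ U1 x y := this
      linarith [hnn x y, abs_nonneg (R x - R y)]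
    push Not at hfar
    by_cases hgap : d x y / 96 ≤ R x - R y
    · linarith
    push Not at hgap
    have hdR := hnn x y
    have hx0 : 0 < R x := by linarith
    have hy0 : 0 < R y := by linarith
    have hxW : x ∈ ((↑A : Set V)ᶜ : Set V) := fun h => by linarith [hRA x h]
    have hyW : y ∈ ((↑A : Set V)ᶜ : Set V) := fun h => by linarith [hRA y h]
    set i := scale x with hi
    have hiI : i ∈ I := mem_image_of_mem _ (mem_univ x)
    set D := (2 : ℝ) ^ i with hD
    have hD0 : 0 < D := zpow_pos two_pos i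
    have hlo : D ≤ 2 * R x / 3 := by
      have := Int.zpow_log_le_self (R := ℝ) one_lt_two (show 0 < 2 * R x / 3 by linarith)
      rw [hD, hi, hscale]
      exact_mod_cast this
    have hhi : 2 * R x / 3 < 2 * D := by
      have := Int.lt_zpow_succ_log_self (R := ℝ) one_lt_two (2 * R x / 3)
      rw [hD, hi, hscale]
      rw [zpow_add_one₀ (by norm_num)] at this
      push_cast at this
      linarith
    have htx : tent D (R x) = D := tent_eq hD0.le (by linarith) (by linarith)
    set t := min (d x y) D with ht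
    have hδge : t ≤ δ D ⟨x, hxW⟩ ⟨y, hyW⟩ := by
      by_cases hr : H.Reachable ⟨x, hxW⟩ ⟨y, hyW⟩
      · rw [hδ_reach D _ _ hr]
        exact (min_le_left _ _).trans ((gdist_le_induce hℓ hr).trans (hb _ _ hr).1)
      · exact (min_le_right _ _).trans (hδ_far D hD0.le _ _ hr)
    have hsat := saturation_ge hD0 (le_min hdR hD0.le) (min_le_right _ _) hδge
    rw [← hg2 i] at hsat
    have htlow : d x y / 12 ≤ t := le_min (by linarith) (by linarith)
    have htd : |tent D (R x) - tent D (R y)| ≤ d x y / 96 :=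
      (tent_lipschitz D _ _).trans (abs_le.2 ⟨by linarith, by linarith⟩)
    have hkey : D * ∑ T, |gg i x T - gg i y T| ≤ u i x y + |tent D (R x) - tent D (R y)| := by
      calc D * ∑ T, |gg i x T - gg i y T| ≤ ∑ T, (|tent D (R x) * gg i x T -
            tent D (R y) * gg i y T| + |tent D (R x) - tent D (R y)| * |gg i y T|) := by
            rw [mul_sum]
            refine sum_le_sum fun T _ => ?_
            rw [← abs_of_pos hD0, ← abs_mul, abs_of_pos hD0, ← abs_mul]
            conv_lhs => rw [← htx]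
            refine le_trans (le_of_eq ?_) (abs_sub _ _)
            congr 1
            ring
        _ ≤ _ := by
            rw [sum_add_distrib, ← mul_sum]
            gcongr
            exact mul_le_of_le_one_right (abs_nonneg _) (hgg1 i y)
    have hgeq : ∑ T, |gg i x T - gg i y T| =
        ∑ T, |g i ⟨x, hxW⟩ T - g i ⟨y, hyW⟩ T| := by
      simp only [hgg, dif_pos hxW, dif_pos hyW]
    rw [← hgeq] at hsat
    have h36 : d x y / 36 ≤ D * ∑ T, |gg i x T - gg i y T| := by
      calc d x y / 36 ≤ t / 3 := by linarith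
        _ = D * (t / D / 3) := by field_simp
        _ ≤ _ := mul_le_mul_of_nonneg_left hsat hD0.le
    have hsingle : u i x y ≤ ∑ i ∈ I, u i x y := single_le_sum (fun i _ => hu0 i) hiI
    linarith [abs_nonneg (R x - R y)]
  refine embedsL1_of_coords _ _ (fun x j => 96 * F x j) (fun x y => ?_) fun x y => ?_
  · simp only [← mul_sub, abs_mul, ← mul_sum, abs_of_pos (show (0 : ℝ) < 96 by norm_num)]
    rcases le_total (R y) (R x) with h | h
    · exact hlower x y h
    · rw [show d x y = d y x from hsymm x y]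
      exact (hlower y x h).trans_eq (congrArg ((96 : ℝ) * ·) (sum_congr rfl fun j _ => abs_sub_comm _ _))
  · simp only [← mul_sub, abs_mul, ← mul_sum, abs_of_pos (show (0 : ℝ) < 96 by norm_num)]
    rw [hsum]
    have h1 := hRlip x y
    have h2 := hU1le x y
    have h3 := hbands x y
    have h4 := hnn x y
    have h5 : (T : ℝ) = (Nat.log 2 A.card : ℝ) + 1 := by rw [hT]; push_cast; ring
    rw [h5] at h2
    have hL : (0 : ℝ) ≤ Nat.log 2 A.card := Nat.cast_nonneg _
    nlinarith

/-- `G` embeds if every component of `G - A` does. -/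
theorem apex_of_components {G : SimpleGraph V} {ℓ : Sym2 V → ℝ}
    (hℓ : ∀ e ∈ G.edgeSet, 0 < ℓ e) (hG : G.Connected) (A : Finset V) (hA : A.Nonempty)
    {K : ℝ} (hK : 1 ≤ K)
    (h : ∀ c : (G.induce (↑A : Set V)ᶜ).ConnectedComponent, EmbedsL1
      (fun x y : c.supp => gdist (G.induce (↑A : Set V)ᶜ) (fun e => ℓ (e.map Subtype.val)) x y)
      K) :
    EmbedsL1 (gdist G ℓ) (3000 * (K + Nat.log 2 A.card)) := by
  classical
  set H := G.induce (↑A : Set V)ᶜ
  choose w hw0 hw using fun c => cuts_of_embedsL1 (h c)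
  set b : (Σ c : H.ConnectedComponent, Finset c.supp) → ((↑A : Set V)ᶜ : Set V) → Bool :=
    fun j x => decide (∃ hx : x ∈ j.1.supp, (⟨x, hx⟩ : j.1.supp) ∈ j.2) with hb
  refine apex_core hℓ hG A hA (fun j => w j.1 j.2) (fun j => hw0 j.1 j.2) b hK fun x y hr => ?_
  set c := H.connectedComponentMk x with hc
  have hxc : x ∈ c.supp := rfl
  have hyc : y ∈ c.supp := (SimpleGraph.ConnectedComponent.sound hr).symm
  have key : ∑ j : (Σ c : H.ConnectedComponent, Finset c.supp),
      w j.1 j.2 * sep (b j x) (b j y) =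
      ∑ S : Finset c.supp, w c S *
        sep (decide ((⟨x, hxc⟩ : c.supp) ∈ S)) (decide ((⟨y, hyc⟩ : c.supp) ∈ S)) := by
    rw [Fintype.sum_sigma]
    refine (Fintype.sum_eq_single c fun c' hne => sum_eq_zero fun S _ => ?_).trans
      (sum_congr rfl fun S _ => ?_)
    · have hx' : ¬ x ∈ c'.supp := fun hx => hne hx.symm
      have hy' : ¬ y ∈ c'.supp := fun hy => hne (hy.symm.trans hyc)
      have hbx : b ⟨c', S⟩ x = false := decide_eq_false fun ⟨h, _⟩ => hx' h
      have hby : b ⟨c', S⟩ y = false := decide_eq_false fun ⟨h, _⟩ => hy' h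
      simp [hbx, hby, sep]
    · have hbx : b ⟨c, S⟩ x = decide ((⟨x, hxc⟩ : c.supp) ∈ S) := decide_eq_decide.2 ⟨fun ⟨_, h⟩ => h, fun h => ⟨hxc, h⟩⟩
      have hby : b ⟨c, S⟩ y = decide ((⟨y, hyc⟩ : c.supp) ∈ S) := decide_eq_decide.2 ⟨fun ⟨_, h⟩ => h, fun h => ⟨hyc, h⟩⟩
      rw [hbx, hby]
  rw [key]
  exact hw c ⟨x, hxc⟩ ⟨y, hyc⟩

/-- `G` embeds if `G - A` is a forest. -/
theorem apex_of_forest {G : SimpleGraph V} {ℓ : Sym2 V → ℝ}
    (hℓ : ∀ e ∈ G.edgeSet, 0 < ℓ e) (hG : G.Connected) (A : Finset V) (hA : A.Nonempty)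
    (h : (G.induce (↑A : Set V)ᶜ).IsAcyclic) :
    EmbedsL1 (gdist G ℓ) (3000 * (1 + Nat.log 2 A.card)) := by
  classical
  obtain ⟨w, hw0, hw⟩ := forest_cuts h (induce_len_pos hℓ)
  refine apex_core hℓ hG A hA w hw0 (side (G.induce (↑A : Set V)ᶜ)) le_rfl fun x y hr => ?_
  exact ⟨(hw x y hr).ge, (hw x y hr).trans_le (by rw [one_mul])⟩

end Vale.Agent.P235
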