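import Mathlib

/-!
Weighted shortest path distance of a finite graph, and bi-Lipschitz maps into real L1 spaces.
-/

open MeasureTheory

namespace Vale.Agent.P235

variable {V : Type}

/-- The length of a walk: the sum of the lengths of its edges, with multiplicity. -/
noncomputable def wlen {G : SimpleGraph V} (ℓ : Sym2 V → ℝ) {x y : V} (p : G.Walk x y) : ℝ :=
  (p.edges.map ℓ).sum

/-- The shortest path distance: infimum of the walk lengths. -/
noncomputable def gdist (G : SimpleGraph V) (ℓ : Sym2 V → ℝ) (x y : V) : ℝ :=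
  ⨅ p : G.Walk x y, wlen ℓ p

/-- A map to some real L1 space which does not contract and expands by at most `C`. -/
def EmbedsL1 {α : Type} (d : α → α → ℝ) (C : ℝ) : Prop :=
  ∃ (Ω : Type) (_ : MeasurableSpace Ω) (μ : Measure Ω) (f : α → Lp ℝ 1 μ),
    ∀ x y, d x y ≤ ‖f x - f y‖ ∧ ‖f x - f y‖ ≤ C * d x y

end Vale.Agent.P235
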