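import Vale.Agent.P235.Defs

/-!
Basic facts about the weighted shortest path distance.
-/

namespace Vale.Agent.P235

variable {V : Type} {G : SimpleGraph V} {ℓ : Sym2 V → ℝ}

theorem wlen_nil (x : V) : wlen ℓ (SimpleGraph.Walk.nil : G.Walk x x) = 0 := by
  simp [wlen]

theorem wlen_cons {x y z : V} (h : G.Adj x y) (p : G.Walk y z) :
    wlen ℓ (p.cons h) = ℓ s(x, y) + wlen ℓ p := by
  simp [wlen]

theorem wlen_append {x y z : V} (p : G.Walk x y) (q : G.Walk y z) :
    wlen ℓ (p.append q) = wlen ℓ p + wlen ℓ q := by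
  simp [wlen]

theorem wlen_reverse {x y : V} (p : G.Walk x y) : wlen ℓ p.reverse = wlen ℓ p := by
  simp [wlen]

variable (hℓ : ∀ e ∈ G.edgeSet, 0 < ℓ e)

include hℓ

theorem wlen_nonneg {x y : V} (p : G.Walk x y) : 0 ≤ wlen ℓ p := by
  apply List.sum_nonneg
  intro a ha
  obtain ⟨e, he, rfl⟩ := List.mem_map.1 ha
  exact (hℓ e (p.edges_subset_edgeSet he)).le

theorem gdist_bddBelow (x y : V) : BddBelow (Set.range fun p : G.Walk x y => wlen ℓ p) :=
  ⟨0, by rintro _ ⟨p, rfl⟩; exact wlen_nonneg hℓ p⟩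

theorem gdist_le {x y : V} (p : G.Walk x y) : gdist G ℓ x y ≤ wlen ℓ p :=
  ciInf_le (gdist_bddBelow hℓ x y) p

theorem gdist_nonneg (x y : V) : 0 ≤ gdist G ℓ x y :=
  Real.iInf_nonneg fun p => wlen_nonneg hℓ p

theorem gdist_self (x : V) : gdist G ℓ x x = 0 :=
  le_antisymm ((gdist_le hℓ SimpleGraph.Walk.nil).trans_eq (wlen_nil x)) (gdist_nonneg hℓ x x)

theorem gdist_le_gdist_symm {x y : V} (h : G.Reachable x y) :
    gdist G ℓ y x ≤ gdist G ℓ x y := by
  have : Nonempty (G.Walk x y) := h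
  exact le_ciInf fun p => (gdist_le hℓ p.reverse).trans_eq (wlen_reverse p)

theorem gdist_symm (hG : G.Connected) (x y : V) : gdist G ℓ x y = gdist G ℓ y x :=
  le_antisymm (gdist_le_gdist_symm hℓ (hG y x)) (gdist_le_gdist_symm hℓ (hG x y))

theorem gdist_triangle (hG : G.Connected) (x y z : V) :
    gdist G ℓ x z ≤ gdist G ℓ x y + gdist G ℓ y z := by
  have : Nonempty (G.Walk x y) := hG x y
  have : Nonempty (G.Walk y z) := hG y z
  have h1 : ∀ p : G.Walk x y, gdist G ℓ x z - wlen ℓ p ≤ gdist G ℓ y z := fun p =>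
    le_ciInf fun q => by
      have := (gdist_le hℓ (p.append q)).trans_eq (wlen_append p q)
      linarith
  have h2 : gdist G ℓ x z - gdist G ℓ y z ≤ gdist G ℓ x y :=
    le_ciInf fun p => by have := h1 p; linarith
  linarith

theorem gdist_pos [Finite V] (hG : G.Connected) {x y : V} (h : x ≠ y) : 0 < gdist G ℓ x y := by
  have : Nonempty (G.Walk x y) := hG x y
  obtain ⟨c, hc, hcl⟩ : ∃ c : ℝ, 0 < c ∧ ∀ e ∈ G.edgeSet, c ≤ ℓ e := by
    rcases G.edgeSet.eq_empty_or_nonempty with he | he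
    · exact ⟨1, one_pos, by simp [he]⟩
    · obtain ⟨e, he, hmin⟩ := Set.exists_min_image G.edgeSet ℓ (Set.toFinite _) he
      exact ⟨ℓ e, hℓ e he, hmin⟩
  refine hc.trans_le (le_ciInf fun p => ?_)
  cases p with
  | nil => exact absurd rfl h
  | cons hadj q =>
    rw [wlen_cons]
    have := wlen_nonneg hℓ q
    have := hcl _ (G.mem_edgeSet.2 hadj)
    linarith

/-- A walk shorter than the distance from its start to `A` lifts to the graph without `A`. -/
theorem exists_avoiding_walk {A : Set V} {r : ℝ} :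
    ∀ {x y : V} (p : G.Walk x y) (hx : x ∈ Aᶜ) (hy : y ∈ Aᶜ),
      wlen ℓ p < r → (∀ a ∈ A, r ≤ gdist G ℓ x a) →
      ∃ q : (G.induce Aᶜ).Walk ⟨x, hx⟩ ⟨y, hy⟩,
        wlen (fun e => ℓ (e.map Subtype.val)) q = wlen ℓ p := by
  intro x y p
  induction p generalizing r with
  | nil => exact fun hx hy _ _ => ⟨.nil, by simp [wlen]⟩
  | @cons u v w h p ih =>
    intro hx hy hp hA
    rw [wlen_cons] at hp
    have hpn := wlen_nonneg hℓ p
    have hle : ∀ a, gdist G ℓ u a ≤ ℓ s(u, v) + gdist G ℓ v a ∨ ¬ G.Reachable v a := by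
      intro a
      by_cases hr : G.Reachable v a
      · left
        have : Nonempty (G.Walk v a) := hr
        have h2 : gdist G ℓ u a - ℓ s(u, v) ≤ gdist G ℓ v a :=
          le_ciInf fun q => by
            have := (gdist_le hℓ (q.cons h)).trans_eq (wlen_cons h q)
            linarith
        linarith
      · exact Or.inr hr
    have hv : v ∈ Aᶜ := by
      intro hva
      rcases hle v with h1 | h1
      · rw [gdist_self hℓ v] at h1
        linarith [hA v hva]
      · exact h1 (SimpleGraph.Reachable.refl v)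
    have hA' : ∀ a ∈ A, r - ℓ s(u, v) ≤ gdist G ℓ v a := by
      intro a ha
      rcases hle a with h1 | h1
      · linarith [hA a ha]
      · have hu : ¬ G.Reachable u a := fun hr => h1 (h.reachable.symm.trans hr)
        have : IsEmpty (G.Walk u a) := ⟨fun q => hu ⟨q⟩⟩
        have h0 : gdist G ℓ u a = 0 := Real.iInf_of_isEmpty _
        linarith [hA a ha, gdist_nonneg hℓ v a, hℓ _ (G.mem_edgeSet.2 h)]
    obtain ⟨q, hq⟩ := ih hv hy (by linarith) hA'
    refine ⟨q.cons (show (G.induce Aᶜ).Adj ⟨u, hx⟩ ⟨v, hv⟩ from h), ?_⟩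
    rw [wlen_cons, wlen_cons, hq]
    rfl

omit hℓ in
theorem wlen_induce_hom {s : Set V} {x y : s} (q : (G.induce s).Walk x y) :
    ∃ p : G.Walk x.1 y.1, wlen ℓ p = wlen (fun e => ℓ (e.map Subtype.val)) q := by
  refine ⟨q.map (SimpleGraph.Embedding.induce s).toHom, ?_⟩
  unfold wlen
  erw [SimpleGraph.Walk.edges_map, List.map_map]
  rfl

theorem induce_len_pos {s : Set V} :
    ∀ e ∈ (G.induce s).edgeSet, 0 < ℓ (e.map Subtype.val) := by
  intro e
  induction e using Sym2.ind with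
  | _ a b => exact fun he => hℓ _ he

theorem gdist_le_induce {s : Set V} {x y : s} (h : (G.induce s).Reachable x y) :
    gdist G ℓ x.1 y.1 ≤ gdist (G.induce s) (fun e => ℓ (e.map Subtype.val)) x y := by
  have : Nonempty ((G.induce s).Walk x y) := h
  refine le_ciInf fun q => ?_
  obtain ⟨p, hp⟩ := wlen_induce_hom (ℓ := ℓ) q
  exact (gdist_le hℓ p).trans_eq hp

/-- Below the distance to `A` the two shortest path distances agree. -/
theorem local_agree (hG : G.Connected) {A : Set V} {r : ℝ} {x y : (Aᶜ : Set V)}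
    (hd : gdist G ℓ x.1 y.1 < r) (hA : ∀ a ∈ A, r ≤ gdist G ℓ x.1 a) :
    (G.induce Aᶜ).Reachable x y ∧
      gdist (G.induce Aᶜ) (fun e => ℓ (e.map Subtype.val)) x y = gdist G ℓ x.1 y.1 := by
  have : Nonempty (G.Walk x.1 y.1) := hG x.1 y.1
  obtain ⟨p, hp⟩ := exists_lt_of_ciInf_lt hd
  obtain ⟨q, -⟩ := exists_avoiding_walk hℓ p x.2 y.2 hp hA
  refine ⟨⟨q⟩, le_antisymm ?_ (gdist_le_induce hℓ ⟨q⟩)⟩
  refine le_of_forall_gt_imp_ge_of_dense fun c hc => ?_
  obtain ⟨p, hp⟩ := exists_lt_of_ciInf_lt (lt_min hc hd : gdist G ℓ x.1 y.1 < min c r)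
  obtain ⟨q, hq⟩ := exists_avoiding_walk hℓ p x.2 y.2 (hp.trans_le (min_le_right _ _)) hA
  exact ((gdist_le (induce_len_pos hℓ) q).trans_eq hq).trans (hp.le.trans (min_le_left _ _))

end Vale.Agent.P235
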